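import Mathlib
import Vale.Agent.Lib.P058.Defs

/-!
# P058, pool job J3 (helper96, backup copy): the isometry group of the plane is soluble

The real-linear isometries of `ℂ` form a soluble group: the rotations are the image of the
commutative group `Circle` and contain the kernel of the determinant, whose values lie in the
commutative group `ℝˣ`.
-/

namespace Vale.Agent.Lib.P058.H96

open Vale.Agent.Lib.P058

theorem isSolvable_O2 : Group.IsSolvable (ℂ ≃ₗᵢ[ℝ] ℂ) := by
  let g : (ℂ ≃ₗᵢ[ℝ] ℂ) →* ℝˣ :=
    MonoidHom.mk' (fun e : ℂ ≃ₗᵢ[ℝ] ℂ => LinearEquiv.det e.toLinearEquiv) (by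
      intro a b
      have hab : (a * b).toLinearEquiv = a.toLinearEquiv * b.toLinearEquiv := rfl
      show LinearEquiv.det (a * b).toLinearEquiv
        = LinearEquiv.det a.toLinearEquiv * LinearEquiv.det b.toLinearEquiv
      rw [hab, map_mul])
  have hg : ∀ e : ℂ ≃ₗᵢ[ℝ] ℂ, g e = LinearEquiv.det e.toLinearEquiv := fun _ => rfl
  refine Group.isSolvable_of_ker_le_range rotation g ?_
  intro e he
  rw [MonoidHom.mem_ker] at he
  obtain ⟨a, h | h⟩ := linear_isometry_complex e
  · exact ⟨a, h.symm⟩
  · exfalso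
    have h2 : e = rotation a * Complex.conjLIE := h
    rw [h2, map_mul, hg, hg, linearEquiv_det_rotation, Complex.linearEquiv_det_conjLIE, one_mul] at he
    have h3 : ((-1 : ℝˣ) : ℝ) = ((1 : ℝˣ) : ℝ) := by rw [he]
    norm_num at h3

end Vale.Agent.Lib.P058.H96
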